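import Vale.Agent.P281.H638.RC.Mark

/-!
# P281, class C geometry of T-HKT (helper638): finiteness and cocompactness of the translations
-/

open Set Filter Metric
open scoped Topology

noncomputable section

namespace Vale.Agent.P281.H638.RC

open Vale.Agent.P281.H64 (Cm Mark)
open Vale.Agent.P281.H64.TK (Sheets)

/-- finitely many translations in a ball -/
theorem fin_of_disc {a : ℕ} {K : Type} {l : K → Cm a} {Λ : AddSubgroup (Cm a)}
    (hd : ∃ r > 0, ∀ v ∈ Λ, ‖v‖ < r → v = 0) (hl : ∀ k, l k ∈ Λ) (inj : Function.Injective l)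
    (R : ℝ) : {k : K | ‖l k‖ ≤ R}.Finite := by
  obtain ⟨r, hr, hd⟩ := hd
  have hD : DiscreteTopology Λ := by
    refine DiscreteTopology.of_forall_le_norm hr fun x hx => ?_
    by_contra hlt
    exact hx (Subtype.ext (hd x x.2 (not_le.1 hlt)))
  have hc : IsClosed (Λ : Set (Cm a)) := AddSubgroup.isClosed_of_discrete
  have h1 : (closedBall (0 : Cm a) R ∩ (Λ : Set (Cm a))).Finite :=
    Metric.finite_isBounded_inter_isClosed DiscreteTopology.isDiscrete isBounded_closedBall hc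
  refine Set.Finite.of_finite_image (f := l) (h1.subset ?_) inj.injOn
  rintro _ ⟨k, hk, rfl⟩
  exact ⟨mem_closedBall_zero_iff.2 hk, hl k⟩

/-- the translations are cocompact -/
theorem cpt_of {d a : ℕ} {E K H : Type} [TopologicalSpace E] [TopologicalSpace H] [Nonempty H]
    [Group K] [MulAction K E] (S : Sheets d E K) {ψ : E → Cm a × H} {l : K → Cm a}
    (hc : Continuous ψ) (surj : Function.Surjective ψ)
    (act : ∀ (k : K) e, ψ (k • e) = ((ψ e).1 + l k, (ψ e).2)) :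
    ∃ C : Set (Cm a), IsCompact C ∧ ∀ z, ∃ k : K, z + l k ∈ C := by
  obtain ⟨x₀⟩ : Nonempty H := inferInstance
  obtain ⟨e₀, -⟩ := surj (0, x₀)
  have hne : Nonempty E := ⟨e₀⟩
  have hsub : closedBall (0 : Cm d) 1 ⊆ ball (0 : Cm d) 3 := closedBall_subset_ball (by norm_num)
  have hK : IsCompact (⋃ i : Fin S.N, (fun z => (ψ (S.σ i z)).1) '' closedBall (0 : Cm d) 1) := by
    refine isCompact_iUnion fun i => (isCompact_closedBall _ _).image_of_continuousOn ?_
    intro z hz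
    have h1 : ContinuousAt (S.σ i) z := (S.map_nhds i z (hsub hz)).le
    exact ((continuous_fst.comp hc).continuousAt.comp h1).continuousWithinAt
  refine ⟨_, hK, fun z => ?_⟩
  obtain ⟨e, he⟩ := surj (z, x₀)
  obtain ⟨k, i, w, hw, hkw⟩ := S.cover e
  refine ⟨k⁻¹, mem_iUnion.2 ⟨i, w, mem_closedBall_zero_iff.2 hw.le, ?_⟩⟩
  have h1 : S.σ i w = k⁻¹ • e := by rw [← hkw, inv_smul_smul]
  show (ψ (S.σ i w)).1 = z + l k⁻¹
  rw [h1, act, he]

/-- the translations of `K` are in the lattice, and `l` is injective -/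
theorem zero_of {a : ℕ} {E K H : Type} [Group K] [MulAction K E] {ψ : E → Cm a × H}
    {l : K → Cm a} {A : Set (Cm a × H)}
    (act : ∀ (k : K) e, ψ (k • e) = ((ψ e).1 + l k, (ψ e).2))
    (free : ∀ (k : K) (e : E), k • e = e → k = 1)
    (inj : ∀ e e', ψ e = ψ e' → ψ e ∉ A → e = e') (hA : ∃ e, ψ e ∉ A) (k : K) (hk : l k = 0) :
    k = 1 := by
  obtain ⟨e, he⟩ := hA
  have h1 : ψ e = ψ (k • e) := by rw [act, hk, add_zero]
  exact free k e (inj e (k • e) h1 he).symm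

/-- `l` is injective -/
theorem inj_of {a : ℕ} {E K H : Type} [Nonempty E] [Group K] [MulAction K E]
    {ψ : E → Cm a × H} {l : K → Cm a}
    (act : ∀ (k : K) e, ψ (k • e) = ((ψ e).1 + l k, (ψ e).2)) (zero : ∀ k, l k = 0 → k = 1) :
    Function.Injective l := by
  have hm := act_mul act
  have h1 : l 1 = 0 := by
    have h := hm 1 1
    rw [mul_one] at h
    simpa using h
  have hinv : ∀ k, l k⁻¹ = - l k := fun k => by
    have h' := hm k⁻¹ k
    rw [inv_mul_cancel, h1] at h'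
    exact eq_neg_of_add_eq_zero_left h'.symm
  intro k k' h
  exact mul_inv_eq_one.1 (zero _ (by rw [hm, hinv, h, add_neg_cancel]))

/-- an element which preserves `g ∘ ψ` acts as the translation by a vector of `Λ` -/
theorem act_of {a : ℕ} {E Γ F H : Type} [TopologicalSpace E] [PreconnectedSpace E] [Nonempty E]
    [Group Γ] [MulAction Γ E] [ContinuousConstSMul Γ E] [TopologicalSpace F] [TopologicalSpace H]
    {g : Cm a × H → F} {Λ : AddSubgroup (Cm a)} (hd : ∃ r > 0, ∀ v ∈ Λ, ‖v‖ < r → v = 0)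
    (hgΛ : ∀ x x', g x = g x' ↔ x'.1 - x.1 ∈ Λ ∧ x.2 = x'.2) {ψ : E → Cm a × H}
    (hψ : Continuous ψ) {γ : Γ} (hγ : ∀ e, g (ψ (γ • e)) = g (ψ e)) :
    ∃ v ∈ Λ, ∀ e, ψ (γ • e) = ((ψ e).1 + v, (ψ e).2) := by
  obtain ⟨e₀⟩ : Nonempty E := inferInstance
  obtain ⟨r, hr, hd⟩ := hd
  have h1 : ∀ e, (ψ (γ • e)).1 - (ψ e).1 ∈ Λ ∧ (ψ e).2 = (ψ (γ • e)).2 := fun e =>
    (hgΛ _ _).1 (hγ e).symm
  have hcont : Continuous fun e => (ψ (γ • e)).1 - (ψ e).1 := by
    have h2 : Continuous fun e : E => γ • e := continuous_const_smul γ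
    exact (continuous_fst.comp (hψ.comp h2)).sub (continuous_fst.comp hψ)
  have hlc : IsLocallyConstant fun e => (ψ (γ • e)).1 - (ψ e).1 := by
    rw [IsLocallyConstant.iff_eventually_eq]
    intro e
    have h2 := hcont.continuousAt.eventually (Metric.ball_mem_nhds
      ((ψ (γ • e)).1 - (ψ e).1) hr)
    filter_upwards [h2] with e' he'
    have h3 : (ψ (γ • e')).1 - (ψ e').1 - ((ψ (γ • e)).1 - (ψ e).1) = 0 :=
      hd _ (Λ.sub_mem (h1 e').1 (h1 e).1) (by
        have h4 : dist ((ψ (γ • e')).1 - (ψ e').1) ((ψ (γ • e)).1 - (ψ e).1) < r := he'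
        rwa [dist_eq_norm] at h4)
    exact sub_eq_zero.1 h3
  refine ⟨(ψ (γ • e₀)).1 - (ψ e₀).1, (h1 e₀).1, fun e => ?_⟩
  have h5 : (ψ (γ • e)).1 - (ψ e).1 = (ψ (γ • e₀)).1 - (ψ e₀).1 :=
    hlc.apply_eq_of_preconnectedSpace e e₀
  refine Prod.ext ?_ (h1 e).2.symm
  show (ψ (γ • e)).1 = (ψ e).1 + ((ψ (γ • e₀)).1 - (ψ e₀).1)
  rw [← h5]
  abel

end Vale.Agent.P281.H638.RC
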