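import Vale.Agent.P281.H638.HKT.A2

/-!
# P281, class C geometry of T-HKT (helper638): the marking of the group from its translations
-/

open Set Filter Metric
open scoped Topology

noncomputable section

namespace Vale.Agent.P281.H638.RC

open Vale.Agent.P281.H64 (Cm Mark)

/-- the translations of a group acting through `ℂ^a` -/
theorem act_mul {a : ℕ} {E K H : Type} [Nonempty E] [Group K] [MulAction K E] {ψ : E → Cm a × H}
    {l : K → Cm a} (act : ∀ (k : K) e, ψ (k • e) = ((ψ e).1 + l k, (ψ e).2)) (k k' : K) :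
    l (k * k') = l k + l k' := by
  obtain ⟨e₀⟩ : Nonempty E := inferInstance
  have h1 := act (k * k') e₀
  rw [mul_smul, act k, act k'] at h1
  have h3 : (ψ e₀).1 + l k' + l k = (ψ e₀).1 + l (k * k') := congrArg Prod.fst h1
  have h4 : l k' + l k = l (k * k') := by
    rw [add_assoc] at h3
    exact add_left_cancel h3
  rw [← h4, add_comm]

/-- discreteness of the translations from finiteness in the balls -/
theorem disc_of_fin {a : ℕ} {K : Type} {l : K → Cm a}
    (fin : ∀ R : ℝ, {k : K | ‖l k‖ ≤ R}.Finite) : ∃ r > 0, ∀ k, ‖l k‖ < r → l k = 0 := by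
  have h1 : ((fun k => ‖l k‖) '' {k : K | ‖l k‖ ≤ 1 ∧ l k ≠ 0}).Finite :=
    ((fin 1).subset fun k hk => hk.1).image _
  have h2 : (0 : ℝ) ∉ (fun k => ‖l k‖) '' {k : K | ‖l k‖ ≤ 1 ∧ l k ≠ 0} := by
    rintro ⟨k, ⟨-, hk⟩, hk0⟩
    exact hk (norm_eq_zero.1 hk0)
  obtain ⟨r, hr, hb⟩ := Metric.mem_nhds_iff.1 (h1.isClosed.isOpen_compl.mem_nhds h2)
  refine ⟨min r 1, lt_min hr one_pos, fun k hk => ?_⟩
  by_contra hne
  have h3 : ‖l k‖ ∈ ball (0 : ℝ) r := by
    rw [mem_ball_zero_iff, norm_norm]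
    exact hk.trans_le (min_le_left _ _)
  exact hb h3 ⟨k, ⟨(hk.trans_le (min_le_right _ _)).le, hne⟩, rfl⟩

/-- **the marking** -/
theorem mark_act {a : ℕ} {E K H : Type} [Nonempty E] [Group K] [MulAction K E]
    {ψ : E → Cm a × H} {l : K → Cm a}
    (act : ∀ (k : K) e, ψ (k • e) = ((ψ e).1 + l k, (ψ e).2)) (zero : ∀ k, l k = 0 → k = 1)
    (fin : ∀ R : ℝ, {k : K | ‖l k‖ ≤ R}.Finite)
    (cpt : ∃ C : Set (Cm a), IsCompact C ∧ ∀ z, ∃ k : K, z + l k ∈ C) :
    Nonempty (Mark K (a + a)) :=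
  H638.HKT.mark_of (act_mul act) zero (disc_of_fin fin) cpt

end Vale.Agent.P281.H638.RC
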